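import Vale.Agent.P238.Main

/-!
# P238: a lower bound of order `(log n)^2 / log log n`
-/

open Filter

namespace Vale.Agent.Results.P238.LogSquareLowerBound

open Vale.Agent.P238

/-- The `ℓ¹` distortion of edit distance on binary words of length `n` is at least a constant
times `(log n)^2 / log log n`. -/
theorem result : ∃ c : ℝ, 0 < c ∧ ∀ᶠ n : ℕ in atTop,
    c * Real.log n ^ 2 / Real.log (Real.log n) ≤ c1ED n :=
  c1ED_lower_bound

end Vale.Agent.Results.P238.LogSquareLowerBound
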